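import Vale.Agent.P181.PL.Defs
import Vale.Agent.P181.H530.Pad
import Vale.Agent.P181.T7.Cells

set_option autoImplicit false

/-!
# P181, PL: block P8.1
-/

namespace Vale.Agent.P181.PL81

open Vale.Agent.P181.T4 (HW ex low ex_of_lt ex_anti)
open Vale.Agent.P181.T7 (cells cells_pad)
open Vale.Agent.P181.H280 (plethMult)
open Vale.Agent.P181.PL

lemma dn_cells {n : ℕ} (lam : Fin n → ℕ) (j : ℕ) : dn lam j = cells j lam := rfl

/-- Padding to `a` rows. -/
lemma pad_rows {n a : ℕ} (lam : Fin n → ℕ) (hlam : Antitone lam) (hna : n ≤ a) :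
    ∃ mu : Fin a → ℕ, Antitone mu ∧ ∑ i, mu i = ∑ i, lam i ∧ (∀ i, ex mu i = ex lam i) ∧
      (∀ j, dn mu j = dn lam j) ∧ ∀ x y, plethMult x y a mu = plethMult x y n lam := by
  obtain ⟨k, rfl⟩ := Nat.exists_eq_add_of_le hna
  refine ⟨fun i => if h : (i : ℕ) < n then lam ⟨i, h⟩ else 0, ?_, ?_, fun i => ?_, fun j => ?_,
    fun x y => H530.pad_stmt x y n k lam⟩
  · intro i j hij
    have hij' : (i : ℕ) ≤ j := hij
    dsimp only
    split_ifs with h1 h2 h2
    · exact hlam (show (⟨i, h2⟩ : Fin n) ≤ ⟨j, h1⟩ from hij')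
    · omega
    · exact Nat.zero_le _
    · exact le_rfl
  · rw [Fin.sum_univ_add]
    have h1 : ∑ i : Fin n, (if h : ((Fin.castAdd k i : Fin (n + k)) : ℕ) < n then
        lam ⟨(Fin.castAdd k i : Fin (n + k)), h⟩ else 0) = ∑ i, lam i := by
      apply Finset.sum_congr rfl
      intro i _
      rw [dif_pos (by simp)]
      congr 1
    have h2 : ∑ i : Fin k, (if h : ((Fin.natAdd n i : Fin (n + k)) : ℕ) < n then
        lam ⟨(Fin.natAdd n i : Fin (n + k)), h⟩ else 0) = 0 := by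
      apply Finset.sum_eq_zero
      intro i _
      rw [dif_neg (by simp)]
    rw [h1, h2, add_zero]
  · unfold ex
    by_cases h1 : i < n
    · rw [dif_pos (show i < n + k by omega), dif_pos h1]
      simp only
      rw [dif_pos h1]
    · rw [dif_neg h1]
      by_cases h2 : i < n + k
      · rw [dif_pos h2]
        simp only
        rw [dif_neg h1]
      · rw [dif_neg h2]
  · exact cells_pad j lam

/-- **(P8.1)** -/
theorem heavy1 (h : CaseIX) : Heavy1 := by
  rintro a b n X R lam ⟨⟨hlam, hsum, hpos, hna, hb2, hb, hXa, hX, hb2', hlam1⟩, hR3, hRn, hRX,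
    hsp, hD⟩ hw1 hw2
  obtain ⟨mu, hmu, hmus, hex, hdn, hple⟩ := pad_rows lam hlam hna
  rw [← hple a b, ← hple b a]
  have ha : 1 ≤ a := by omega
  have ha1 : (1 : ℝ) ≤ a := by exact_mod_cast ha
  have hlog0 : 0 ≤ Real.log a := Real.log_nonneg ha1
  have hX6 : 10 ^ 12 * (1 + Real.log a) ^ 6 ≤ (X : ℝ) := by
    refine le_trans ?_ hX
    apply mul_le_mul_of_nonneg_left _ (by positivity)
    exact pow_le_pow_right₀ (by linarith) (by norm_num)
  have hXpos : 0 < X := by
    have h1 : (0 : ℝ) < X := lt_of_lt_of_le (by positivity) hX6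
    exact_mod_cast h1
  refine h a b R X (dn lam R) mu hmu (hmus.trans hsum) hb2 (by omega) (by omega) hX6 hRX
    (hdn R).symm ?_ ?_ ?_
  · rw [hex]
    exact hsp
  · have h1 : a ^ 2 ≤ X ^ 2700 * dn lam R := by
      calc a ^ 2 ≤ dn lam 2 * X ^ 100 := hw2
        _ ≤ (X ^ 2600 * dn lam R) * X ^ 100 := Nat.mul_le_mul_right _ hD
        _ = X ^ 2700 * dn lam R := by
            rw [mul_right_comm, ← pow_add]
    have h2 : a ^ 4 ≤ X ^ 5400 * dn lam R ^ 2 := by
      calc a ^ 4 = (a ^ 2) ^ 2 := by rw [← pow_mul]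
        _ ≤ (X ^ 2700 * dn lam R) ^ 2 := Nat.pow_le_pow_left h1 2
        _ = X ^ 5400 * dn lam R ^ 2 := by rw [mul_pow, ← pow_mul]
    have h3 : X ^ 5400 * (a ^ 3 * X ^ 160) ≤ X ^ 5400 * dn lam R ^ 2 := by
      calc X ^ 5400 * (a ^ 3 * X ^ 160) = a ^ 3 * X ^ 5560 := by
            rw [mul_left_comm, ← pow_add]
        _ ≤ a ^ 3 * X ^ 20000 := Nat.mul_le_mul_left _ (Nat.pow_le_pow_right hXpos (by norm_num))
        _ ≤ a ^ 3 * a := Nat.mul_le_mul_left _ hXa
        _ = a ^ 4 := (pow_succ a 3).symm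
        _ ≤ _ := h2
    exact Nat.le_of_mul_le_mul_left h3 (pow_pos hXpos _)
  · exact (Nat.mul_le_mul_left _ (Nat.pow_le_pow_right hXpos (by norm_num))).trans hb

end Vale.Agent.P181.PL81
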